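import Mathlib

/-! The Prekopa-Leindler inequality on finite-dimensional real spaces. -/

set_option autoImplicit false

namespace Crest.Agent.Lib.PL

open MeasureTheory Set Filter Topology
open scoped ENNReal NNReal Pointwise

lemma bm1_compact {A B C : Set ℝ} (hA : IsCompact A) (hB : IsCompact B) (hAn : A.Nonempty)
    (hBn : B.Nonempty) (h : ∀ x ∈ A, ∀ y ∈ B, x + y ∈ C) : volume A + volume B ≤ volume C := by
  obtain ⟨a, ha, hamax⟩ := hA.exists_isGreatest hAn
  obtain ⟨b, hb, hbmin⟩ := hB.exists_isLeast hBn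
  have h1 : volume ((fun x => x - b) ⁻¹' A) = volume A := by
    simp only [sub_eq_add_neg]; exact measure_preimage_add_right _ _ _
  have h2 : volume ((fun x => x - a) ⁻¹' B) = volume B := by
    simp only [sub_eq_add_neg]; exact measure_preimage_add_right _ _ _
  have hd : AEDisjoint volume ((fun x => x - b) ⁻¹' A) ((fun x => x - a) ⁻¹' B) := by
    refine measure_mono_null (t := {a + b}) ?_ (measure_singleton _)
    rintro z ⟨hz1, hz2⟩
    have := hamax hz1
    have := hbmin hz2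
    simp only [mem_singleton_iff] at *
    linarith
  rw [← h1, ← h2, ← measure_union₀
    (hB.measurableSet.preimage (measurable_sub_const a)).nullMeasurableSet hd]
  refine measure_mono ?_
  rintro z (hz | hz)
  · simpa using h _ hz _ hb
  · simpa using h _ ha _ hz

/-- One-dimensional Brunn-Minkowski. -/
lemma bm1 {A B C : Set ℝ} (hA : MeasurableSet A) (hB : MeasurableSet B) (hAn : A.Nonempty)
    (hBn : B.Nonempty) (h : ∀ x ∈ A, ∀ y ∈ B, x + y ∈ C) : volume A + volume B ≤ volume C := by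
  obtain ⟨a, ha⟩ := hAn
  obtain ⟨b, hb⟩ := hBn
  rw [hA.measure_eq_iSup_isCompact, hB.measure_eq_iSup_isCompact]
  simp only [iSup_and']
  refine ENNReal.biSup_add_biSup_le' ⟨∅, by simp⟩ ⟨∅, by simp⟩ ?_
  rintro K ⟨hKA, hK⟩ L ⟨hLB, hL⟩
  refine le_trans (add_le_add (measure_mono (subset_insert a K))
    (measure_mono (subset_insert b L))) (bm1_compact (hK.insert a) (hL.insert b)
      (insert_nonempty _ _) (insert_nonempty _ _) fun x hx y hy => h x ?_ y ?_)
  · exact insert_subset ha hKA hx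
  · exact insert_subset hb hLB hy

lemma bm1_weighted {a b : ℝ} (ha : 0 < a) (hb : 0 < b) {A B C : Set ℝ} (hA : MeasurableSet A)
    (hB : MeasurableSet B) (hAn : A.Nonempty) (hBn : B.Nonempty)
    (h : ∀ x ∈ A, ∀ y ∈ B, a * x + b * y ∈ C) :
    ENNReal.ofReal a * volume A + ENNReal.ofReal b * volume B ≤ volume C := by
  have h1 : volume (a • A) = ENNReal.ofReal a * volume A := by
    rw [Measure.addHaar_smul]; simp [abs_of_pos ha]
  have h2 : volume (b • B) = ENNReal.ofReal b * volume B := by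
    rw [Measure.addHaar_smul]; simp [abs_of_pos hb]
  rw [← h1, ← h2]
  refine bm1 (hA.const_smul₀ a) (hB.const_smul₀ b) hAn.smul_set hBn.smul_set ?_
  rintro _ ⟨x, hx, rfl⟩ _ ⟨y, hy, rfl⟩
  exact h x hx y hy

lemma layercake {α : Type*} [MeasurableSpace α] (μ : Measure α) {f : α → ℝ≥0∞} (hf : Measurable f)
    (hf' : ∀ x, f x ≠ ⊤) :
    ∫⁻ x, f x ∂μ = ∫⁻ t in Ioi (0 : ℝ), μ {x | ENNReal.ofReal t < f x} := by
  have h := lintegral_eq_lintegral_meas_lt μ (f := fun x => (f x).toReal)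
    (ae_of_all _ fun x => ENNReal.toReal_nonneg) hf.ennreal_toReal.aemeasurable
  simp only [ENNReal.ofReal_toReal (hf' _)] at h
  rw [h]
  refine setLIntegral_congr_fun measurableSet_Ioi fun t ht => ?_
  congr 1; ext x
  simp only [mem_ofPred_eq]
  exact (ENNReal.ofReal_lt_iff_lt_toReal (le_of_lt ht) (hf' x)).symm

lemma measurable_levelMeasure {α : Type*} [MeasurableSpace α] (μ : Measure α) (f : α → ℝ≥0∞) :
    Measurable fun t : ℝ => μ {x | ENNReal.ofReal t < f x} := by
  refine Antitone.measurable fun s t hst => measure_mono fun x hx => ?_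
  exact lt_of_le_of_lt (ENNReal.ofReal_le_ofReal hst) hx

lemma pl1_normalized {a b : ℝ} (ha : 0 < a) (hb : 0 < b) (hab : a + b = 1)
    {f g h : ℝ → ℝ≥0∞} (hf : Measurable f) (hg : Measurable g) (hh : Measurable h)
    (hf1 : ⨆ x, f x = 1) (hg1 : ⨆ x, g x = 1)
    (H : ∀ x y, f x ^ a * g y ^ b ≤ h (a * x + b * y)) :
    ENNReal.ofReal a * (∫⁻ x, f x) + ENNReal.ofReal b * (∫⁻ x, g x) ≤ ∫⁻ x, h x := by
  have hfle : ∀ x, f x ≤ 1 := fun x => hf1 ▸ le_iSup f x
  have hgle : ∀ x, g x ≤ 1 := fun x => hg1 ▸ le_iSup g x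
  refine le_trans ?_ (lintegral_mono fun x => min_le_left (h x) 1)
  rw [layercake _ hf (fun x => ne_top_of_le_ne_top ENNReal.one_ne_top (hfle x)),
    layercake _ hg (fun x => ne_top_of_le_ne_top ENNReal.one_ne_top (hgle x)),
    layercake _ (hh.min measurable_const)
      (fun x => ne_top_of_le_ne_top ENNReal.one_ne_top (min_le_right _ _)),
    ← lintegral_const_mul _ (measurable_levelMeasure _ _),
    ← lintegral_const_mul _ (measurable_levelMeasure _ _),
    ← lintegral_add_left ((measurable_levelMeasure _ _).const_mul _)]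
  refine setLIntegral_mono' measurableSet_Ioi fun t ht => ?_
  by_cases ht1 : ENNReal.ofReal t < 1
  · have hA : ∃ x, ENNReal.ofReal t < f x := by rw [← lt_iSup_iff, hf1]; exact ht1
    have hB : ∃ x, ENNReal.ofReal t < g x := by rw [← lt_iSup_iff, hg1]; exact ht1
    refine bm1_weighted ha hb (measurableSet_lt measurable_const hf)
      (measurableSet_lt measurable_const hg) hA hB fun x hx y hy => ?_
    simp only [mem_ofPred_eq, lt_min_iff] at hx hy ⊢
    refine ⟨lt_of_lt_of_le ?_ (H x y), ht1⟩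
    have ht0 : ENNReal.ofReal t ≠ 0 := by simpa using ht
    calc ENNReal.ofReal t = ENNReal.ofReal t ^ a * ENNReal.ofReal t ^ b := by
          rw [← ENNReal.rpow_add _ _ ht0 ENNReal.ofReal_ne_top, hab, ENNReal.rpow_one]
      _ < f x ^ a * g y ^ b :=
          ENNReal.mul_lt_mul (ENNReal.rpow_lt_rpow hx ha) (ENNReal.rpow_lt_rpow hy hb)
  · push Not at ht1
    have e1 : {x | ENNReal.ofReal t < f x} = ∅ :=
      eq_empty_of_forall_notMem fun x hx => absurd (lt_of_lt_of_le hx (hfle x)) (not_lt.2 ht1)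
    have e2 : {x | ENNReal.ofReal t < g x} = ∅ :=
      eq_empty_of_forall_notMem fun x hx => absurd (lt_of_lt_of_le hx (hgle x)) (not_lt.2 ht1)
    simp [e1, e2]

lemma geom_le_arith {a b : ℝ} (ha : 0 < a) (hb : 0 < b) (hab : a + b = 1) (x y : ℝ≥0∞) :
    x ^ a * y ^ b ≤ ENNReal.ofReal a * x + ENNReal.ofReal b * y := by
  rcases eq_or_ne x ⊤ with rfl | hx
  · rw [ENNReal.mul_top (by simpa using ha)]; simp
  rcases eq_or_ne y ⊤ with rfl | hy
  · rw [ENNReal.mul_top (by simpa using hb)]; simp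
  lift x to ℝ≥0 using hx
  lift y to ℝ≥0 using hy
  lift a to ℝ≥0 using ha.le
  lift b to ℝ≥0 using hb.le
  have := NNReal.geom_mean_le_arith_mean2_weighted a b x y (by exact_mod_cast hab)
  rw [← ENNReal.coe_rpow_of_nonneg _ ha.le, ← ENNReal.coe_rpow_of_nonneg _ hb.le]
  simp only [ENNReal.ofReal_coe_nnreal]
  exact_mod_cast this

lemma pl1_bounded {a b : ℝ} (ha : 0 < a) (hb : 0 < b) (hab : a + b = 1)
    {f g h : ℝ → ℝ≥0∞} (hf : Measurable f) (hg : Measurable g) (hh : Measurable h)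
    (hf1 : ⨆ x, f x ≠ ⊤) (hg1 : ⨆ x, g x ≠ ⊤)
    (H : ∀ x y, f x ^ a * g y ^ b ≤ h (a * x + b * y)) :
    (∫⁻ x, f x) ^ a * (∫⁻ x, g x) ^ b ≤ ∫⁻ x, h x := by
  set M := ⨆ x, f x with hM
  set N := ⨆ x, g x with hN
  rcases eq_or_ne M 0 with hM0 | hM0
  · have : f = fun _ => 0 := funext fun x => le_antisymm (hM0 ▸ le_iSup f x) zero_le
    simp [this, ENNReal.zero_rpow_of_pos ha]
  rcases eq_or_ne N 0 with hN0 | hN0
  · have : g = fun _ => 0 := funext fun x => le_antisymm (hN0 ▸ le_iSup g x) zero_le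
    simp [this, ENNReal.zero_rpow_of_pos hb]
  set c := M ^ a * N ^ b with hc
  have hc0 : c ≠ 0 := mul_ne_zero (by simp [hM0, hf1]) (by simp [hN0, hg1])
  have hct : c ≠ ⊤ := ENNReal.mul_ne_top (ENNReal.rpow_ne_top_of_nonneg ha.le hf1)
    (ENNReal.rpow_ne_top_of_nonneg hb.le hg1)
  have key := pl1_normalized ha hb hab (f := fun x => M⁻¹ * f x) (g := fun x => N⁻¹ * g x)
    (h := fun x => c⁻¹ * h x) (hf.const_mul _) (hg.const_mul _) (hh.const_mul _)
    (by rw [← ENNReal.mul_iSup, ← hM, ENNReal.inv_mul_cancel hM0 hf1])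
    (by rw [← ENNReal.mul_iSup, ← hN, ENNReal.inv_mul_cancel hN0 hg1])
    (fun x y => by
      rw [ENNReal.mul_rpow_of_nonneg _ _ ha.le, ENNReal.mul_rpow_of_nonneg _ _ hb.le,
        ENNReal.inv_rpow, ENNReal.inv_rpow, hc, ENNReal.mul_inv (by simp [hM0, hf1])
          (Or.inl (ENNReal.rpow_ne_top_of_nonneg ha.le hf1))]
      calc (M ^ a)⁻¹ * f x ^ a * ((N ^ b)⁻¹ * g y ^ b)
          = (M ^ a)⁻¹ * (N ^ b)⁻¹ * (f x ^ a * g y ^ b) := by ring
        _ ≤ _ := by gcongr; exact H x y)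
  have key2 := (geom_le_arith ha hb hab _ _).trans key
  rw [lintegral_const_mul _ hf, lintegral_const_mul _ hg, lintegral_const_mul _ hh,
    ENNReal.mul_rpow_of_nonneg _ _ ha.le, ENNReal.mul_rpow_of_nonneg _ _ hb.le,
    ENNReal.inv_rpow, ENNReal.inv_rpow] at key2
  have e : (M ^ a)⁻¹ * (∫⁻ x, f x) ^ a * ((N ^ b)⁻¹ * (∫⁻ x, g x) ^ b) =
      c⁻¹ * ((∫⁻ x, f x) ^ a * (∫⁻ x, g x) ^ b) := by
    rw [hc, ENNReal.mul_inv (by simp [hM0, hf1])
      (Or.inl (ENNReal.rpow_ne_top_of_nonneg ha.le hf1))]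
    ring
  rw [e] at key2
  exact (ENNReal.mul_le_mul_iff_right (ENNReal.inv_ne_zero.2 hct) (ENNReal.inv_ne_top.2 hc0)).1 key2

lemma tendsto_lintegral_min {α : Type*} [MeasurableSpace α] (μ : Measure α) {f : α → ℝ≥0∞}
    (hf : Measurable f) :
    Tendsto (fun n : ℕ => ∫⁻ x, min (f x) n ∂μ) atTop (𝓝 (∫⁻ x, f x ∂μ)) := by
  refine lintegral_tendsto_of_tendsto_of_monotone
    (fun n => (hf.min measurable_const).aemeasurable) (ae_of_all _ fun x m n hmn => ?_)
    (ae_of_all _ fun x => ?_)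
  · exact min_le_min_left _ (by exact_mod_cast hmn)
  · have := (tendsto_const_nhds (x := f x) (f := (atTop : Filter ℕ))).min
      ENNReal.tendsto_nat_nhds_top
    simpa using this

/-- The Prekopa-Leindler property of a measure with weights `a`, `b`. -/
def HasPL {E : Type*} [AddCommGroup E] [Module ℝ E] [MeasurableSpace E] (a b : ℝ)
    (μ : Measure E) : Prop :=
  ∀ f g h : E → ℝ≥0∞, Measurable f → Measurable g → Measurable h →
    (∀ x y, f x ^ a * g y ^ b ≤ h (a • x + b • y)) →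
    (∫⁻ x, f x ∂μ) ^ a * (∫⁻ x, g x ∂μ) ^ b ≤ ∫⁻ x, h x ∂μ

lemma hasPL_real {a b : ℝ} (ha : 0 < a) (hb : 0 < b) (hab : a + b = 1) :
    HasPL a b (volume : Measure ℝ) := by
  intro f g h hf hg hh H
  rcases eq_or_ne (∫⁻ x, f x) 0 with h0 | hf0
  · simp [h0, ENNReal.zero_rpow_of_pos ha]
  rcases eq_or_ne (∫⁻ x, g x) 0 with h0 | hg0
  · simp [h0, ENNReal.zero_rpow_of_pos hb]
  have t1 := (ENNReal.continuous_rpow_const (y := a)).continuousAt.tendsto.comp
    (tendsto_lintegral_min volume hf)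
  have t2 := (ENNReal.continuous_rpow_const (y := b)).continuousAt.tendsto.comp
    (tendsto_lintegral_min volume hg)
  have t3 := ENNReal.Tendsto.mul t1 (Or.inl (by simp [hf0, ha.le])) t2
    (Or.inl (by simp [hg0, hb.le]))
  refine le_of_tendsto' t3 fun n => ?_
  refine pl1_bounded ha hb hab (hf.min measurable_const) (hg.min measurable_const) hh
    (ne_top_of_le_ne_top (ENNReal.natCast_ne_top n) (iSup_le fun x => min_le_right _ _))
    (ne_top_of_le_ne_top (ENNReal.natCast_ne_top n) (iSup_le fun x => min_le_right _ _))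
    fun x y => le_trans ?_ (H x y)
  gcongr <;> exact min_le_left _ _

lemma HasPL.prod {E F : Type*} [AddCommGroup E] [Module ℝ E] [MeasurableSpace E]
    [AddCommGroup F] [Module ℝ F] [MeasurableSpace F] {a b : ℝ} {μ : Measure E} {ν : Measure F}
    [SFinite ν] (hμ : HasPL a b μ) (hν : HasPL a b ν) : HasPL a b (μ.prod ν) := by
  intro f g h hf hg hh H
  rw [lintegral_prod _ hf.aemeasurable, lintegral_prod _ hg.aemeasurable,
    lintegral_prod _ hh.aemeasurable]
  refine hμ _ _ _ hf.lintegral_prod_right' hg.lintegral_prod_right' hh.lintegral_prod_right'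
    fun x y => ?_
  exact hν _ _ _ (hf.comp measurable_prodMk_left) (hg.comp measurable_prodMk_left)
    (hh.comp measurable_prodMk_left) fun u v => H (x, u) (y, v)

lemma HasPL.map {E F : Type*} [AddCommGroup E] [Module ℝ E] [MeasurableSpace E]
    [AddCommGroup F] [Module ℝ F] [MeasurableSpace F] {a b : ℝ} {μ : Measure E} {ν : Measure F}
    (hμ : HasPL a b μ) (e : E → F) (he : MeasurePreserving e μ ν)
    (hlin : ∀ x y, e (a • x + b • y) = a • e x + b • e y) : HasPL a b ν := by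
  intro f g h hf hg hh H
  rw [← he.lintegral_comp hf, ← he.lintegral_comp hg, ← he.lintegral_comp hh]
  exact hμ _ _ _ (hf.comp he.measurable) (hg.comp he.measurable) (hh.comp he.measurable)
    fun x y => by simpa [hlin] using H (e x) (e y)

lemma hasPL_pi {a b : ℝ} (ha : 0 < a) (hb : 0 < b) (hab : a + b = 1) (n : ℕ) :
    HasPL a b (volume : Measure (Fin n → ℝ)) := by
  induction n with
  | zero =>
    intro f g h _ _ _ H
    have := H default default
    rw [volume_pi, Measure.pi_of_empty _ default]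
    simp only [lintegral_dirac]
    rwa [Subsingleton.elim (a • default + b • default) default] at this
  | succ n ih =>
    have h1 := (volume_preserving_piFinSuccAbove (fun _ : Fin (n + 1) => ℝ) 0).symm
    refine ((hasPL_real ha hb hab).prod ih).map _ h1 fun x y => ?_
    ext i
    refine Fin.cases ?_ (fun j => ?_) i <;> simp [MeasurableEquiv.piFinSuccAbove]

/-- **Prekopa-Leindler** on Euclidean space. -/
theorem hasPL_euclidean {a b : ℝ} (ha : 0 < a) (hb : 0 < b) (hab : a + b = 1) (n : ℕ) :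
    HasPL a b (volume : Measure (EuclideanSpace ℝ (Fin n))) :=
  (hasPL_pi ha hb hab n).map _ (PiLp.volume_preserving_toLp (Fin n)) fun x y => by simp

/-- restriction to a convex set -/
lemma HasPL.restrict {E : Type*} [AddCommGroup E] [Module ℝ E] [MeasurableSpace E] {a b : ℝ}
    (ha : 0 < a) (hb : 0 < b) (hab : a + b = 1) {μ : Measure E} (hμ : HasPL a b μ) {K : Set E}
    (hK : Convex ℝ K) (hKm : MeasurableSet K) (f g h : E → ℝ≥0∞) (hf : Measurable f)
    (hg : Measurable g) (hh : Measurable h)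
    (H : ∀ x ∈ K, ∀ y ∈ K, f x ^ a * g y ^ b ≤ h (a • x + b • y)) :
    (∫⁻ x in K, f x ∂μ) ^ a * (∫⁻ x in K, g x ∂μ) ^ b ≤ ∫⁻ x in K, h x ∂μ := by
  rw [← lintegral_indicator hKm, ← lintegral_indicator hKm, ← lintegral_indicator hKm]
  refine hμ _ _ _ (hf.indicator hKm) (hg.indicator hKm) (hh.indicator hKm) fun x y => ?_
  by_cases hx : x ∈ K
  · by_cases hy : y ∈ K
    · rw [indicator_of_mem hx, indicator_of_mem hy, indicator_of_mem (hK hx hy ha.le hb.le hab)]
      exact H x hx y hy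
    · simp [indicator_of_notMem hy, ENNReal.zero_rpow_of_pos hb]
  · simp [indicator_of_notMem hx, ENNReal.zero_rpow_of_pos ha]

end Crest.Agent.Lib.PL
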